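import Vale.Agent.Lib.P173.B2.Path

/-!
# P173 part B2, module Cech: abelian cochains on the union of a good cover

`uV, uE, uF`: cells of the union U of the Y v.
cech_H1: an abelian 1-cocycle on U is a coboundary.  On Y v: `flat_trivial` with H = Multiplicative B
(`hol_multiplicative`) gives φ_v with c e = φ_v (tgt e) - φ_v (src e) on (Y v).e.  For adjacent v, w the function
φ_w - φ_v is constant on the vertices of Y v ∩ Y w (`const_of_path`, connected), value g v w (put g v w = 0 if
not adjacent; the value at a chosen point, for the pair (w, v) use the same point or the constancy):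
g w v = - g v w, and g u w = g u v + g v w for adjacent triples: u, v, w have the three colours (proper), so they
form a `Tri`; at the common point of `C.tri` all three constants can be read off.
FlagH1: g v w = f w - f v.  φ x := φ_v x - f v for any v with x ∈ Y v (independent of v: two such v, w are
equal or adjacent by `C.disj`); for e ∈ (Y v).e both end points are in Y v.
relInj.  N = AddSubgroup.closure {X.chain (X.bd f) | f ∈ uF}, B = (X.E →₀ ℤ) ⧸ N, c e = mk (single e 1); the
cocycle condition is mk (chain (bd f)) = 0.  Let φ be as in cech_H1 and L = the additive map with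
L (single e 1) = φ (tgt e) - φ (src e); L (chain p) = φ y - φ x for a path p from x to y, so L (d₂ z) = 0 for all z.
If d₂ z is supported in uE then mk (d₂ z) = L (d₂ z) = 0, so d₂ z ∈ N, d₂ z = d₂ y with y supported in uF
(closure induction), z = y by H₂Zero, and the supports are disjoint: z = 0.
-/

namespace Vale.Agent.P173.B2

open Vale.Agent.P173

variable {K : ColGraph} {X : TwoComplex}

/-- vertices of the union -/
def uV (C : GoodCover K X) : Set X.V := {x | ∃ v, x ∈ (C.Y v).v}

/-- edges of the union -/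
def uE (C : GoodCover K X) : Set X.E := {e | ∃ v, e ∈ (C.Y v).e}

/-- faces of the union -/
def uF (C : GoodCover K X) : Set X.F := {f | ∃ v, f ∈ (C.Y v).f}

/-- equal or adjacent -/
def near (K : ColGraph) (v w : K.V) : Prop := v = w ∨ K.adj v w

theorem near_of_mem (C : GoodCover K X) {v w : K.V} {x : X.V} (hv : x ∈ (C.Y v).v)
    (hw : x ∈ (C.Y w).v) : near K v w := by
  by_contra hn
  unfold near at hn
  push Not at hn
  exact C.disj v w x hn.1 hn.2 hv hw

theorem uF_bd (C : GoodCover K X) {f : X.F} (hf : f ∈ uF C) : ∀ eb ∈ X.bd f, eb.1 ∈ uE C := by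
  obtain ⟨v, hv⟩ := hf
  exact fun eb heb => ⟨v, (C.Y v).bd_mem f hv eb heb⟩

/-- sum of an abelian labelling along a path -/
def csum {E B : Type} [AddCommGroup B] (c : E → B) (p : List (E × Bool)) : B :=
  (p.map fun eb => if eb.2 then c eb.1 else - c eb.1).sum

theorem hol_multiplicative {E B : Type} [AddCommGroup B] (c : E → B) (p : List (E × Bool)) :
    hol (fun e => Multiplicative.ofAdd (c e)) p = Multiplicative.ofAdd (csum c p) := by
  induction p with
  | nil => rfl
  | cons eb p ih =>
    rw [hol_cons, ih]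
    unfold csum
    rw [List.map_cons, List.sum_cons, ofAdd_add]
    cases eb.2 <;> rfl

theorem csum_eq_chain {E B : Type} [AddCommGroup B] (c : E → B) (p : List (E × Bool)) :
    csum c p = (chainL p).sum fun e n => n • c e := by
  induction p with
  | nil => simp [csum, chainL]
  | cons eb p ih =>
    unfold csum chainL at ih ⊢
    rw [List.map_cons, List.sum_cons, List.map_cons, List.sum_cons, ih,
      Finsupp.sum_add_index' (h := fun (e : E) (n : ℤ) => n • c e) (fun e => zero_smul ℤ (c e))
        (fun e m n => add_smul m n (c e)),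
      Finsupp.sum_single_index (zero_smul ℤ (c eb.1))]
    congr 1
    split_ifs <;> simp

/-- three pairwise adjacent vertices form a triangle -/
private theorem Cech_tri {u v w : K.V} (huv : K.adj u v) (hvw : K.adj v w) (huw : K.adj u w) :
    ∃ T : K.Tri, T.t (K.col u) = u ∧ T.t (K.col v) = v ∧ T.t (K.col w) = w := by
  classical
  have h1 := K.proper u v huv
  have h2 := K.proper v w hvw
  have h3 := K.proper u w huw
  have hall : ∀ i : Fin 3, i ≠ K.col u → i ≠ K.col v → i = K.col w := by
    intro i hi hi'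
    generalize K.col u = a at *
    generalize K.col v = b at *
    generalize K.col w = c at *
    revert a b c i
    decide
  refine ⟨⟨fun i => if i = K.col u then u else if i = K.col v then v else w, ?_, ?_⟩, ?_, ?_, ?_⟩
  · intro i
    split_ifs with hi hi'
    · exact hi.symm
    · exact hi'.symm
    · exact (hall i hi hi').symm
  · intro i j hij
    split_ifs with hi hj hj' hi' hj hj' hj hj'
    · exact absurd (hi.trans hj.symm) hij
    · exact huv
    · exact huw
    · exact K.symm _ _ huv
    · exact absurd (hi'.trans hj'.symm) hij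
    · exact hvw
    · exact K.symm _ _ huw
    · exact K.symm _ _ hvw
    · exact absurd ((hall i hi hi').trans (hall j hj hj').symm) hij
  · exact if_pos rfl
  · change (if K.col v = K.col u then u else if K.col v = K.col v then v else w) = v
    rw [if_neg h1.symm, if_pos rfl]
  · change (if K.col w = K.col u then u else if K.col w = K.col v then v else w) = w
    rw [if_neg h3.symm, if_neg h2.symm]

theorem cech_H1 (C : GoodCover K X) (hK : K.FlagH1) {B : Type} [AddCommGroup B] (c : X.E → B)
    (h : ∀ f ∈ uF C, csum c (X.bd f) = 0) :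
    ∃ φ : X.V → B, ∀ e ∈ uE C, c e = φ (X.tgt e) - φ (X.src e) := by
  classical
  have h1 : ∀ v, ∃ φ : X.V → B, ∀ e ∈ (C.Y v).e, c e = φ (X.tgt e) - φ (X.src e) := by
    intro v
    obtain ⟨φ, hφ⟩ := flat_trivial (C.Y v) (C.conn v) (C.sc v)
      (fun e => Multiplicative.ofAdd (c e)) (by
        intro f hf
        rw [hol_multiplicative, h f ⟨v, hf⟩]
        rfl)
    refine ⟨fun x => Multiplicative.toAdd (φ x), fun e he => ?_⟩
    have h2 := congrArg Multiplicative.toAdd (hφ e he)
    rw [toAdd_mul, toAdd_inv, toAdd_ofAdd] at h2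
    rw [h2]
    abel
  choose φ hφ using h1
  -- the difference of two potentials is constant on the intersection
  have h2 : ∀ v w, K.adj v w → ∀ x y, x ∈ (C.Y v).v → x ∈ (C.Y w).v → y ∈ (C.Y v).v →
      y ∈ (C.Y w).v → φ w x - φ v x = φ w y - φ v y := by
    intro v w hvw x y hx hx' hy hy'
    obtain ⟨p, hp, hpe⟩ := (C.inter v w hvw).2 x ⟨hx, hx'⟩ y ⟨hy, hy'⟩
    refine const_of_path (φ := fun z => φ w z - φ v z) hp fun eb heb => ?_
    have e1 := hφ v eb.1 (hpe eb heb).1
    have e2 := hφ w eb.1 (hpe eb heb).2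
    have e3 := e1.symm.trans e2
    have e4 : φ w (X.tgt eb.1) - φ v (X.tgt eb.1) - (φ w (X.src eb.1) - φ v (X.src eb.1)) =
        φ w (X.tgt eb.1) - φ w (X.src eb.1) - (φ v (X.tgt eb.1) - φ v (X.src eb.1)) := by abel
    rw [← e3, sub_self, sub_eq_zero] at e4
    exact e4.symm
  have h3 : ∀ v w, K.adj v w → ∃ b : B, ∀ x, x ∈ (C.Y v).v → x ∈ (C.Y w).v →
      φ w x - φ v x = b := by
    intro v w hvw
    obtain ⟨x0, hx0, hx0'⟩ := (C.inter v w hvw).1
    exact ⟨φ w x0 - φ v x0, fun x hx hx' => h2 v w hvw x x0 hx hx' hx0 hx0'⟩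
  have h4 : ∀ v w, ∃ b : B, K.adj v w → ∀ x, x ∈ (C.Y v).v → x ∈ (C.Y w).v →
      φ w x - φ v x = b := by
    intro v w
    by_cases hvw : K.adj v w
    · obtain ⟨b, hb⟩ := h3 v w hvw
      exact ⟨b, fun _ => hb⟩
    · exact ⟨0, fun h => absurd h hvw⟩
  choose g hg using h4
  obtain ⟨f, hf⟩ := hK B g (by
      intro v w hvw
      obtain ⟨x0, hx0, hx0'⟩ := (C.inter v w hvw).1
      rw [← hg v w hvw x0 hx0 hx0', ← hg w v (K.symm _ _ hvw) x0 hx0' hx0]
      abel) (by
      intro u v w huv hvw huw
      obtain ⟨T, hu, hv, hw⟩ := Cech_tri huv hvw huw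
      obtain ⟨x, hx⟩ := C.tri T
      have xu := hx (K.col u)
      have xv := hx (K.col v)
      have xw := hx (K.col w)
      rw [hu] at xu
      rw [hv] at xv
      rw [hw] at xw
      rw [← hg u w huw x xu xw, ← hg u v huv x xu xv, ← hg v w hvw x xv xw]
      abel)
  have h5 : ∀ v w x, x ∈ (C.Y v).v → x ∈ (C.Y w).v → φ v x - f v = φ w x - f w := by
    intro v w x hv hw
    rcases near_of_mem C hv hw with h | h
    · rw [h]
    · have e1 := hg v w h x hv hw
      rw [hf v w h] at e1
      have e2 : φ w x - f w - (φ v x - f v) = φ w x - φ v x - (f w - f v) := by abel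
      rw [e1, sub_self, sub_eq_zero] at e2
      exact e2.symm
  have h6 : ∀ x, ∃ b : B, ∀ v, x ∈ (C.Y v).v → φ v x - f v = b := by
    intro x
    by_cases hx : ∃ v, x ∈ (C.Y v).v
    · obtain ⟨v, hv⟩ := hx
      exact ⟨φ v x - f v, fun w hw => h5 w v x hw hv⟩
    · exact ⟨0, fun v hv => absurd ⟨v, hv⟩ hx⟩
  choose Φ hΦ using h6
  refine ⟨Φ, fun e he => ?_⟩
  obtain ⟨v, hv⟩ := he
  rw [← hΦ _ v ((C.Y v).tgt_mem e hv), ← hΦ _ v ((C.Y v).src_mem e hv), hφ v e hv]
  abel

end Vale.Agent.P173.B2
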