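import Vale.Agent.Lib.P173.B2.Cech

/-!
# P173 part B2, module Flat: a flat connection on the union with nontrivial holonomy

`gg v w` = 1 if v = w, else γ v w; for near pairs gg w v = (gg v w)⁻¹, and gg u w = gg u v * gg v w for pairwise near
triples (cases).  Choose for x ∈ uV some a(x) with x ∈ Y (a x), for e ∈ uE some b(e) with e ∈ Y (b e)
(then src e, tgt e ∈ Y (b e)).  c e := gg (a (src e)) (b e) * gg (b e) (a (tgt e)) for e ∈ uE, else 1.
(1) If e ∈ (Y v).e then c e = gg (a (src e)) v * gg v (a (tgt e)): src e lies in Y (a ..), Y (b e), Y v, so these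
    are pairwise near: gg (a src) (b e) = gg (a src) v * gg v (b e); the same for tgt; cancel gg v (b e) * gg (b e) v.
(2) So on Y v the labelling is the coboundary of φ x = gg v (a x) (gg (a x) v = (gg v (a x))⁻¹ for x ∈ Y v):
    `hol_coboundary` needs the formula at all edges of the path; so hol c p = (gg v (a x))⁻¹ * gg v (a y) for paths in Y v
    from x ∈ Y v to y, and hol c (bd f) = 1 for f ∈ Y v.
(3) Take v0, v1, v2, v3 of `UniCocycle`, points x_i ∈ Y v_i ∩ Y v_{i+1} (`C.inter`, nonempty) and paths p_i in Y v_i from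
    x_{i-1} to x_i (indices mod 4).  With a_i = a (x_i):
    hol (p_0 ++ p_1 ++ p_2 ++ p_3) = gg a_3 v_0 * gg v_0 a_0 * gg a_0 v_1 * gg v_1 a_1 * ... * gg v_3 a_3, and
    gg v_i a_i * gg a_i v_{i+1} = gg v_i v_{i+1} = γ v_i v_{i+1}.  So it is gg a_3 v_0 * (γ v0 v1 * γ v1 v2 * γ v2 v3 * γ v3 v0) *
    (gg a_3 v_0)⁻¹ after writing gg v_3 a_3 = gg v_3 v_0 * gg v_0 a_3.  Not 1 by `nontriv`.
-/

namespace Vale.Agent.P173.B2

open Vale.Agent.P173

variable {K : ColGraph} {X : TwoComplex}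

/-- the group generated by the values of the cocycle -/
def gamSub (U : UniCocycle K) : Subgroup U.Rˣ :=
  Subgroup.closure {g | ∃ v w, K.adj v w ∧ g = U.γ v w}

/-- the cocycle extended by `1` to equal vertices -/
noncomputable def gg (U : UniCocycle K) (v w : K.V) : U.Rˣ :=
  open Classical in if v = w then 1 else U.γ v w

theorem gg_self (U : UniCocycle K) (v : K.V) : gg U v v = 1 := by
  simp [gg]

theorem gg_adj (U : UniCocycle K) {v w : K.V} (h : K.adj v w) : gg U v w = U.γ v w := by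
  simp [gg, K.ne_of_adj h]

theorem near_symm {v w : K.V} (h : near K v w) : near K w v := by
  rcases h with rfl | h
  · exact Or.inl rfl
  · exact Or.inr (K.symm _ _ h)

theorem gg_inv (U : UniCocycle K) {v w : K.V} (h : near K v w) : gg U w v = (gg U v w)⁻¹ := by
  rcases h with rfl | h
  · simp [gg_self]
  · rw [gg_adj U h, gg_adj U (K.symm _ _ h), U.inv v w h]

theorem gg_mul (U : UniCocycle K) {u v w : K.V} (h1 : near K u v) (h2 : near K v w)
    (h3 : near K u w) : gg U u w = gg U u v * gg U v w := by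
  by_cases e1 : u = v
  · subst e1
    rw [gg_self, one_mul]
  by_cases e2 : v = w
  · subst e2
    rw [gg_self, mul_one]
  by_cases e3 : u = w
  · subst e3
    rw [gg_self, gg_inv U h1, mul_inv_cancel]
  have a1 := h1.resolve_left e1
  have a2 := h2.resolve_left e2
  have a3 := h3.resolve_left e3
  rw [gg_adj U a1, gg_adj U a2, gg_adj U a3]
  exact U.coc u v w a1 a2 a3

theorem gg_mem (U : UniCocycle K) {v w : K.V} (h : near K v w) : gg U v w ∈ gamSub U := by
  rcases h with rfl | h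
  · rw [gg_self]
    exact one_mem _
  · rw [gg_adj U h]
    exact Subgroup.subset_closure ⟨v, w, h, rfl⟩

theorem flat_exists (C : GoodCover K X) (U : UniCocycle K) :
    ∃ (c : X.E → U.Rˣ) (x : X.V) (p : List (X.E × Bool)), (∀ e, c e ∈ gamSub U) ∧
      (∀ f ∈ uF C, hol c (X.bd f) = 1) ∧ X.Path x p x ∧ (∀ eb ∈ p, eb.1 ∈ uE C) ∧
      hol c p ≠ 1 := by
  classical
  have ha : ∀ x : X.V, ∃ v : K.V, x ∈ uV C → x ∈ (C.Y v).v := by
    intro x
    by_cases hx : x ∈ uV C
    · obtain ⟨v, hv⟩ := hx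
      exact ⟨v, fun _ => hv⟩
    · exact ⟨U.v0, fun h => absurd h hx⟩
  have hb : ∀ e : X.E, ∃ v : K.V, e ∈ uE C → e ∈ (C.Y v).e := by
    intro e
    by_cases he : e ∈ uE C
    · obtain ⟨v, hv⟩ := he
      exact ⟨v, fun _ => hv⟩
    · exact ⟨U.v0, fun h => absurd h he⟩
  choose a ha using ha
  choose b hb using hb
  -- points of `Y v` are in `Y (a x)`
  have hax : ∀ v x, x ∈ (C.Y v).v → near K v (a x) := fun v x hx =>
    near_of_mem C hx (ha x ⟨v, hx⟩)
  let c : X.E → U.Rˣ := fun e =>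
    if e ∈ uE C then gg U (a (X.src e)) (b e) * gg U (b e) (a (X.tgt e)) else 1
  have hc1 : ∀ v e, e ∈ (C.Y v).e →
      c e = (gg U v (a (X.src e)))⁻¹ * gg U v (a (X.tgt e)) := by
    intro v e he
    have heU : e ∈ uE C := ⟨v, he⟩
    have hbe := hb e heU
    have hs := (C.Y v).src_mem e he
    have ht := (C.Y v).tgt_mem e he
    have hs' := (C.Y (b e)).src_mem e hbe
    have ht' := (C.Y (b e)).tgt_mem e hbe
    have n1 : near K v (a (X.src e)) := hax v _ hs
    have n2 : near K v (a (X.tgt e)) := hax v _ ht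
    have n3 : near K (b e) (a (X.src e)) := hax (b e) _ hs'
    have n4 : near K (b e) (a (X.tgt e)) := hax (b e) _ ht'
    have n5 : near K v (b e) := near_of_mem C hs hs'
    have e1 : c e = gg U (a (X.src e)) (b e) * gg U (b e) (a (X.tgt e)) := if_pos heU
    rw [e1, ← gg_inv U n1, gg_mul U (near_symm n1) n5 (near_symm n3),
      gg_mul U (near_symm n5) n2 n4, gg_inv U n5]
    group
  have hcp : ∀ v x p y, X.Path x p y → (∀ eb ∈ p, eb.1 ∈ (C.Y v).e) →
      hol c p = (gg U v (a x))⁻¹ * gg U v (a y) := by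
    intro v x p y hp hmem
    exact hol_coboundary (φ := fun z => gg U v (a z)) hp fun eb heb => hc1 v eb.1 (hmem eb heb)
  -- the four points
  have h01 := (C.inter _ _ U.a01).1
  have h12 := (C.inter _ _ U.a12).1
  have h23 := (C.inter _ _ U.a23).1
  have h30 := (C.inter _ _ U.a30).1
  obtain ⟨x0, hx0, hx0'⟩ := h01
  obtain ⟨x1, hx1, hx1'⟩ := h12
  obtain ⟨x2, hx2, hx2'⟩ := h23
  obtain ⟨x3, hx3, hx3'⟩ := h30
  obtain ⟨p0, hp0, hm0⟩ := (C.conn U.v0).2 x3 hx3' x0 hx0
  obtain ⟨p1, hp1, hm1⟩ := (C.conn U.v1).2 x0 hx0' x1 hx1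
  obtain ⟨p2, hp2, hm2⟩ := (C.conn U.v2).2 x1 hx1' x2 hx2
  obtain ⟨p3, hp3, hm3⟩ := (C.conn U.v3).2 x2 hx2' x3 hx3
  refine ⟨c, x3, p0 ++ (p1 ++ (p2 ++ p3)), ?_, ?_, ?_, ?_, ?_⟩
  · intro e
    by_cases he : e ∈ uE C
    · have hbe := hb e he
      have hs' := (C.Y (b e)).src_mem e hbe
      have ht' := (C.Y (b e)).tgt_mem e hbe
      have e1 : c e = gg U (a (X.src e)) (b e) * gg U (b e) (a (X.tgt e)) := if_pos he
      rw [e1]
      exact mul_mem (gg_mem U (near_symm (hax (b e) _ hs'))) (gg_mem U (hax (b e) _ ht'))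
    · have e1 : c e = 1 := if_neg he
      rw [e1]
      exact one_mem _
  · rintro f ⟨v, hf⟩
    rw [hcp v (X.base f) (X.bd f) (X.base f) (X.closed f) ((C.Y v).bd_mem f hf), inv_mul_cancel]
  · exact isPath_append hp0 (isPath_append hp1 (isPath_append hp2 hp3))
  · intro eb heb
    simp only [List.mem_append] at heb
    rcases heb with h | h | h | h
    · exact ⟨_, hm0 eb h⟩
    · exact ⟨_, hm1 eb h⟩
    · exact ⟨_, hm2 eb h⟩
    · exact ⟨_, hm3 eb h⟩
  · rw [hol_append, hol_append, hol_append, hcp _ _ _ _ hp0 hm0, hcp _ _ _ _ hp1 hm1,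
      hcp _ _ _ _ hp2 hm2, hcp _ _ _ _ hp3 hm3]
    have k0 : gg U U.v0 (a x0) * (gg U U.v1 (a x0))⁻¹ = U.γ U.v0 U.v1 := by
      rw [← gg_inv U (hax _ _ hx0'), ← gg_mul U (hax _ _ hx0) (near_symm (hax _ _ hx0'))
        (Or.inr U.a01), gg_adj U U.a01]
    have k1 : gg U U.v1 (a x1) * (gg U U.v2 (a x1))⁻¹ = U.γ U.v1 U.v2 := by
      rw [← gg_inv U (hax _ _ hx1'), ← gg_mul U (hax _ _ hx1) (near_symm (hax _ _ hx1'))
        (Or.inr U.a12), gg_adj U U.a12]
    have k2 : gg U U.v2 (a x2) * (gg U U.v3 (a x2))⁻¹ = U.γ U.v2 U.v3 := by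
      rw [← gg_inv U (hax _ _ hx2'), ← gg_mul U (hax _ _ hx2) (near_symm (hax _ _ hx2'))
        (Or.inr U.a23), gg_adj U U.a23]
    have k3 : gg U U.v3 (a x3) * (gg U U.v0 (a x3))⁻¹ = U.γ U.v3 U.v0 := by
      rw [← gg_inv U (hax _ _ hx3'), ← gg_mul U (hax _ _ hx3) (near_symm (hax _ _ hx3'))
        (Or.inr U.a30), gg_adj U U.a30]
    intro h
    apply U.nontriv
    rw [← k0, ← k1, ← k2, ← k3]
    have h2 := congrArg (fun z => gg U U.v0 (a x3) * z * (gg U U.v0 (a x3))⁻¹) h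
    simp only [mul_one, mul_inv_cancel] at h2
    rw [← h2]
    group

end Vale.Agent.P173.B2
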