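import Vale.Agent.Lib.P173.B2.Cech

/-!
# P173 part B2, module RelInj: the relative boundary map is injective (proof in the doc comment of Cech)
-/

namespace Vale.Agent.P173.B2

open Vale.Agent.P173

variable {K : ColGraph} {X : TwoComplex}

theorem RelInj_csum {V E B : Type} [AddCommGroup B] {src tgt : E → V} (φ : V → B) :
    ∀ (p : List (E × Bool)) (x y : V), IsPath src tgt x p y →
      csum (fun e => φ (tgt e) - φ (src e)) p = φ y - φ x
  | [], x, y, h => by
    have h' : x = y := h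
    subst h'
    simp [csum]
  | (e, true) :: p, x, y, h => by
    obtain ⟨rfl, h2⟩ := h
    have ih := RelInj_csum φ p _ _ h2
    have e1 : csum (fun e => φ (tgt e) - φ (src e)) ((e, true) :: p) =
      (φ (tgt e) - φ (src e)) + csum (fun e => φ (tgt e) - φ (src e)) p := by
      simp [csum]
    rw [e1, ih]
    abel
  | (e, false) :: p, x, y, h => by
    obtain ⟨rfl, h2⟩ := h
    have ih := RelInj_csum φ p _ _ h2
    have e1 : csum (fun e => φ (tgt e) - φ (src e)) ((e, false) :: p) =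
      -(φ (tgt e) - φ (src e)) + csum (fun e => φ (tgt e) - φ (src e)) p := by
      simp [csum]
    rw [e1, ih]
    abel

/-- the boundary map as an additive map -/
noncomputable def RelInj_d (X : TwoComplex) : (X.F →₀ ℤ) →+ (X.E →₀ ℤ) :=
  Finsupp.liftAddHom fun f => zmultiplesHom _ (X.chain (X.bd f))

theorem RelInj_d_apply (z : X.F →₀ ℤ) : RelInj_d X z = X.d₂ z := by
  rfl

theorem RelInj_N (C : GoodCover K X) (w : X.E →₀ ℤ)
    (hw : w ∈ AddSubgroup.closure {w | ∃ f ∈ uF C, w = X.chain (X.bd f)}) :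
    ∃ y : X.F →₀ ℤ, (∀ f, y f ≠ 0 → f ∈ uF C) ∧ RelInj_d X y = w := by
  classical
  induction hw using AddSubgroup.closure_induction with
  | mem w h =>
    obtain ⟨f, hf, rfl⟩ := h
    refine ⟨Finsupp.single f 1, fun g hg => ?_, ?_⟩
    · by_cases h : f = g
      · exact h ▸ hf
      · exact absurd (Finsupp.single_eq_of_ne' h) hg
    · simp [RelInj_d]
  | zero => exact ⟨0, fun f h => absurd rfl h, map_zero _⟩
  | add a b _ _ ha hb =>
    obtain ⟨y, h1, rfl⟩ := ha
    obtain ⟨y', h2, rfl⟩ := hb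
    refine ⟨y + y', fun f hf => ?_, map_add _ _ _⟩
    by_contra hc
    have e1 : y f = 0 := by
      by_contra h
      exact hc (h1 f h)
    have e2 : y' f = 0 := by
      by_contra h
      exact hc (h2 f h)
    exact hf (by rw [Finsupp.add_apply, e1, e2, add_zero])
  | neg a _ ha =>
    obtain ⟨y, h1, rfl⟩ := ha
    refine ⟨-y, fun f hf => h1 f fun h => hf ?_, map_neg _ _⟩
    rw [Finsupp.neg_apply, h, neg_zero]

/-- H₂(X, U) = 0 -/
theorem relInj (hX : X.H₂Zero) (C : GoodCover K X) (hK : K.FlagH1) (z : X.F →₀ ℤ)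
    (hz : ∀ f, z f ≠ 0 → f ∉ uF C) (hd : ∀ e, X.d₂ z e ≠ 0 → e ∈ uE C) : z = 0 := by
  classical
  let N : AddSubgroup (X.E →₀ ℤ) := AddSubgroup.closure {w | ∃ f ∈ uF C, w = X.chain (X.bd f)}
  let q : (X.E →₀ ℤ) →+ (X.E →₀ ℤ) ⧸ N := QuotientAddGroup.mk' N
  have hq : ∀ w : X.E →₀ ℤ, q w = w.sum fun e n => n • q (Finsupp.single e 1) := by
    intro w
    conv_lhs => rw [← Finsupp.sum_single w]
    rw [map_finsuppSum]
    refine Finsupp.sum_congr fun e _ => ?_
    rw [← map_zsmul, Finsupp.smul_single, smul_eq_mul, mul_one]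
  obtain ⟨φ, hφ⟩ := cech_H1 C hK (fun e => q (Finsupp.single e 1)) (fun f hf => by
    rw [csum_eq_chain, ← hq]
    exact (QuotientAddGroup.eq_zero_iff _).2 (AddSubgroup.subset_closure ⟨f, hf, rfl⟩))
  let L : (X.E →₀ ℤ) →+ (X.E →₀ ℤ) ⧸ N :=
    Finsupp.liftAddHom fun e => zmultiplesHom _ (φ (X.tgt e) - φ (X.src e))
  have hL : ∀ w : X.E →₀ ℤ, L w = w.sum fun e n => n • (φ (X.tgt e) - φ (X.src e)) := by
    intro w
    rfl
  have h1 : L (X.d₂ z) = 0 := by
    rw [TwoComplex.d₂, map_finsuppSum]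
    refine Finset.sum_eq_zero fun f _ => ?_
    have h2 := RelInj_csum φ (X.bd f) _ _ (X.closed f)
    rw [csum_eq_chain, sub_self] at h2
    show L (z f • X.chain (X.bd f)) = 0
    rw [map_zsmul, hL]
    have h3 : X.chain (X.bd f) = chainL (X.bd f) := rfl
    rw [h3, h2, smul_zero]
  have h2 : q (X.d₂ z) = 0 := by
    rw [hq, ← h1, hL]
    refine Finsupp.sum_congr fun e he => ?_
    rw [hφ e (hd e (Finsupp.mem_support_iff.1 he))]
  obtain ⟨y, hy1, hy2⟩ := RelInj_N C _ ((QuotientAddGroup.eq_zero_iff _).1 h2)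
  have h3 : z - y = 0 := hX _ (by
    rw [← RelInj_d_apply, map_sub, hy2, RelInj_d_apply, sub_self])
  have h4 : z = y := sub_eq_zero.1 h3
  refine Finsupp.ext fun f => ?_
  by_contra hf
  exact hz f hf (hy1 f (by rw [← h4]; exact hf))

end Vale.Agent.P173.B2
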