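import Mathlib
import Vale.Agent.Lib.P173.Setup

/-!
# P173 part B2, module UnipB: rational right inverse of an integral matrix with independent rows

T a finite set of rows, a : F → E →₀ ℤ.  The rows a f, f ∈ T, restricted to D are independent over ℤ (hypothesis),
hence over ℚ (clear denominators).  So the linear map (E → ℚ, finitely supported on D) → (T → ℚ),
b ↦ (f ↦ ∑_e a f e * b e) is surjective: otherwise a nonzero functional on T → ℚ kills the image, which is a
rational relation between the rows (test on the b = single e, e ∈ D); clear denominators.  Choose for each f' ∈ T a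
preimage of the delta function at f'.
-/

namespace Vale.Agent.P173.B2

open Vale.Agent.P173
open scoped Classical

/-- the columns `(a f e)_f`, `e ∈ D`, span -/
theorem unipB_span {E F : Type} (T : Finset F) (a : F → E →₀ ℤ) (D : Set E)
    (hinj : ∀ z : F →₀ ℤ, (∀ f, z f ≠ 0 → f ∈ T) →
      (∀ e ∈ D, (z.sum fun f m => m * a f e) = 0) → z = 0) :
    Submodule.span ℚ ((fun (e : E) (f : T) => ((a f e : ℤ) : ℚ)) '' D) = ⊤ := by
  by_contra hne
  obtain ⟨φ, hφ, hker⟩ := Submodule.exists_le_ker_of_lt_top _ (lt_top_iff_ne_top.2 hne)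
  obtain ⟨q, hq⟩ : ∃ q : T → ℚ, ∀ f, q f = φ (fun j => if f = j then 1 else 0) :=
    ⟨_, fun _ => rfl⟩
  have hφq : ∀ v : T → ℚ, φ v = ∑ f, v f * q f := by
    intro v
    rw [LinearMap.pi_apply_eq_sum_univ φ v]
    exact Finset.sum_congr rfl fun f _ => by rw [hq, smul_eq_mul]
  have hrel : ∀ e ∈ D, ∑ f : T, ((a f e : ℤ) : ℚ) * q f = 0 := by
    intro e he
    have h1 : φ (fun f : T => ((a f e : ℤ) : ℚ)) = 0 :=
      hker (Submodule.subset_span ⟨e, he, rfl⟩)
    rw [hφq] at h1
    exact h1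
  obtain ⟨N, hN0, hN⟩ : ∃ N : ℕ, N ≠ 0 ∧ ∀ f : T, ∃ z : ℤ, q f * N = z := by
    refine ⟨∏ f : T, (q f).den, Finset.prod_ne_zero_iff.2 (fun f _ => (q f).den_nz),
      fun f => ?_⟩
    obtain ⟨k, hk⟩ := Finset.dvd_prod_of_mem (fun f => (q f).den) (Finset.mem_univ f)
    refine ⟨(q f).num * k, ?_⟩
    rw [hk]
    push_cast
    rw [← mul_assoc, Rat.mul_den_eq_num]
  choose z hz using hN
  have hsupp : ∀ f, (if h : f ∈ T then z ⟨f, h⟩ else 0) ≠ 0 → f ∈ T := by
    intro f hf
    by_contra h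
    rw [dif_neg h] at hf
    exact hf rfl
  obtain ⟨Z, hZ⟩ : ∃ Z : F →₀ ℤ, Z = Finsupp.onFinset T
    (fun f => if h : f ∈ T then z ⟨f, h⟩ else 0) hsupp := ⟨_, rfl⟩
  have hZf : ∀ f, Z f = if h : f ∈ T then z ⟨f, h⟩ else 0 := fun f => by rw [hZ]; rfl
  have hZ0 : Z = 0 := by
    refine hinj Z (fun f hf => hsupp f (by rw [← hZf]; exact hf)) fun e he => ?_
    have h1 : (Z.sum fun f m => m * a f e) = ∑ f : T, z f * a f e := by
      rw [hZ, Finsupp.onFinset_sum (g := fun f m => m * a f e) (hf := hsupp)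
        (fun f => zero_mul _), ← Finset.sum_coe_sort T]
      refine Finset.sum_congr rfl fun f _ => ?_
      rw [dif_pos f.2]
    rw [h1]
    have h2 : ((∑ f : T, z f * a f e : ℤ) : ℚ) = 0 := by
      push_cast
      have h3 : ∑ f : T, (z f : ℚ) * ((a f e : ℤ) : ℚ) =
          N * ∑ f : T, ((a f e : ℤ) : ℚ) * q f := by
        rw [Finset.mul_sum]
        refine Finset.sum_congr rfl fun f _ => ?_
        rw [← hz]
        ring
      rw [h3, hrel e he, mul_zero]
    exact_mod_cast h2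
  apply hφ
  refine LinearMap.ext fun v => ?_
  rw [hφq, LinearMap.zero_apply]
  refine Finset.sum_eq_zero fun f _ => ?_
  have h1 : z f = 0 := by
    have h2 := hZf f
    rw [hZ0, dif_pos f.2] at h2
    exact h2.symm
  have h3 := hz f
  rw [h1, Int.cast_zero, mul_eq_zero] at h3
  rcases h3 with h3 | h3
  · rw [h3, mul_zero]
  · exact absurd (Nat.cast_eq_zero.1 h3) hN0

theorem exists_right_inv {E F : Type} (T : Finset F) (a : F → E →₀ ℤ) (D : Set E)
    (hinj : ∀ z : F →₀ ℤ, (∀ f, z f ≠ 0 → f ∈ T) →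
      (∀ e ∈ D, (z.sum fun f m => m * a f e) = 0) → z = 0) :
    ∃ b : F → E →₀ ℚ, (∀ f e, b f e ≠ 0 → e ∈ D) ∧
      ∀ f ∈ T, ∀ f' ∈ T, ((a f).sum fun e m => (m : ℚ) * b f' e) = if f = f' then 1 else 0 := by
  have hsp := unipB_span T a D hinj
  have key : ∀ f' : F, ∃ l : E →₀ ℚ, (∀ e, l e ≠ 0 → e ∈ D) ∧
      ∀ f ∈ T, ((a f).sum fun e m => (m : ℚ) * l e) = if f = f' then 1 else 0 := by
    intro f'
    have h1 : (fun f : T => if (f : F) = f' then (1 : ℚ) else 0) ∈
        Submodule.span ℚ ((fun (e : E) (f : T) => ((a f e : ℤ) : ℚ)) '' D) := by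
      rw [hsp]
      exact Submodule.mem_top
    rw [Finsupp.mem_span_image_iff_linearCombination] at h1
    obtain ⟨l, hl, hl'⟩ := h1
    refine ⟨l, fun e he => hl (Finsupp.mem_support_iff.2 he), fun f hf => ?_⟩
    have h2 := congrFun hl' ⟨f, hf⟩
    rw [Finsupp.linearCombination_apply] at h2
    change (l.sum fun e q => q • fun f : T => ((a f e : ℤ) : ℚ)) ⟨f, hf⟩ =
      if f = f' then (1 : ℚ) else 0 at h2
    rw [← h2, Finsupp.sum, Finsupp.sum, Finset.sum_apply]
    have h3 : ∑ e ∈ (a f).support, ((a f e : ℤ) : ℚ) * l e =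
        ∑ e ∈ (a f).support ∪ l.support, ((a f e : ℤ) : ℚ) * l e := by
      refine Finset.sum_subset Finset.subset_union_left fun e _ he => ?_
      rw [Finsupp.notMem_support_iff.1 he, Int.cast_zero, zero_mul]
    have h4 : ∑ e ∈ l.support, (l e • fun f : T => ((a f e : ℤ) : ℚ)) ⟨f, hf⟩ =
        ∑ e ∈ (a f).support ∪ l.support, ((a f e : ℤ) : ℚ) * l e := by
      rw [← Finset.sum_subset Finset.subset_union_right (s₁ := l.support)
        (f := fun e => ((a f e : ℤ) : ℚ) * l e) fun e _ he => by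
          rw [Finsupp.notMem_support_iff.1 he, mul_zero]]
      refine Finset.sum_congr rfl fun e _ => ?_
      rw [Pi.smul_apply, smul_eq_mul, mul_comm]
    rw [h3, h4]
  choose b hb hb' using key
  exact ⟨b, hb, fun f hf f' _ => hb' f' f hf⟩

end Vale.Agent.P173.B2
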