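import Vale.Agent.Lib.P173.B2.UnipA
import Vale.Agent.Lib.P173.B2.UnipB
import Vale.Agent.Lib.P173.B2.Cech

/-!
# P173 part B2, module Unip: finite systems with injective exponent matrix over unipotent ℚ-groups

Let b be the right inverse (`exists_right_inv` with a f = chainL (bd f)).  Claim S(k), 1 ≤ k ≤ n: there is c' with
c' e = c e for e ∉ D, (c' e) - 1 ∈ J for e ∈ D, and hol c' (bd f) - 1 ∈ J^k for f ∈ T.
k = 1: c' e = 1 on D (`Nilp.hol_mem`; the labels of the edges outside D of the faces in T are in 1 + J).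
k → k+1: r f := hol c' (bd f) - 1 ∈ J^k, y e := - ∑_{f' ∈ T} (b f' e) • r f' (∈ J^k, = 0 off D), c'' e = c' e * (1 + y e)
(a unit, `Nilp.unit_of`; c'' = c' off D).  By `Nilp.hol_mod`, modulo J^(k+1):
hol c'' (bd f) ≡ hol c' (bd f) + ∑ ± y e = 1 + r f + ∑_e (chainL (bd f) e) • y e = 1 + r f - ∑_{f'} δ_{f f'} r f' = 1.
At k = n: J^n = ⊥.
-/

namespace Vale.Agent.P173.B2

open Vale.Agent.P173

/-- the linear system -/
theorem unip_lin {R : Type} [Ring R] [Algebra ℚ R] {E F : Type} [DecidableEq F] (T : Finset F)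
    (bd : F → List (E × Bool)) (b : F → E →₀ ℚ)
    (hb : ∀ f ∈ T, ∀ f' ∈ T, ((chainL (bd f)).sum fun e m => (m : ℚ) * b f' e) =
      if f = f' then 1 else 0) (r : F → R) (y : E → R)
    (hy : ∀ e, y e = - ∑ f' ∈ T, b f' e • r f') (f : F) (hf : f ∈ T) :
    ((bd f).map fun eb => if eb.2 then y eb.1 else - y eb.1).sum = - r f := by
  have h1 : ((bd f).map fun eb => if eb.2 then y eb.1 else - y eb.1).sum = csum y (bd f) := rfl
  rw [h1, csum_eq_chain]
  have h2 : ((chainL (bd f)).sum fun e m => m • y e) =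
      - ∑ f' ∈ T, ((chainL (bd f)).sum fun e m => (m : ℚ) * b f' e) • r f' := by
    simp only [Finsupp.sum, Finset.sum_smul]
    rw [Finset.sum_comm, ← Finset.sum_neg_distrib]
    refine Finset.sum_congr rfl fun e _ => ?_
    rw [hy, smul_neg, Finset.smul_sum]
    congr 1
    refine Finset.sum_congr rfl fun f' _ => ?_
    rw [mul_smul, Int.cast_smul_eq_zsmul]
  rw [h2]
  congr 1
  rw [Finset.sum_eq_single f]
  · rw [hb f hf f hf, if_pos rfl, one_smul]
  · intro f' hf' hne
    rw [hb f hf f' hf', if_neg (Ne.symm hne), zero_smul]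
  · intro h
    exact absurd hf h

theorem unip_solve {R : Type} [Ring R] [Algebra ℚ R] (J : Submodule ℚ R) (n : ℕ) (h : Nilp J n)
    {E F : Type} (T : Finset F) (bd : F → List (E × Bool)) (D : Set E) (c : E → Rˣ)
    (hc : ∀ f ∈ T, ∀ eb ∈ bd f, eb.1 ∉ D → ((c eb.1 : Rˣ) : R) - 1 ∈ J)
    (hinj : ∀ z : F →₀ ℤ, (∀ f, z f ≠ 0 → f ∈ T) →
      (∀ e ∈ D, (z.sum fun f m => m * chainL (bd f) e) = 0) → z = 0) :
    ∃ c' : E → Rˣ, (∀ e, e ∉ D → c' e = c e) ∧ ∀ f ∈ T, hol c' (bd f) = 1 := by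
  classical
  obtain ⟨b, hbD, hb⟩ := exists_right_inv T (fun f => chainL (bd f)) D hinj
  have hb' : ∀ f ∈ T, ∀ f' ∈ T, ((chainL (bd f)).sum fun e m => (m : ℚ) * b f' e) =
      if f = f' then 1 else 0 := by
    intro f hf f' hf'
    rw [hb f hf f' hf']
  have hst : ∀ c' : E → Rˣ, (∀ e, e ∉ D → c' e = c e) → (∀ e ∈ D, ((c' e : Rˣ) : R) - 1 ∈ J) →
      ∀ f ∈ T, ∀ eb ∈ bd f, ((c' eb.1 : Rˣ) : R) - 1 ∈ J := by
    intro c' h1 h2 f hf eb heb
    by_cases hD : eb.1 ∈ D
    · exact h2 _ hD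
    · rw [h1 _ hD]
      exact hc f hf eb heb hD
  have claim : ∀ k : ℕ, 1 ≤ k → ∃ c' : E → Rˣ, (∀ e, e ∉ D → c' e = c e) ∧
      (∀ e ∈ D, ((c' e : Rˣ) : R) - 1 ∈ J) ∧
      ∀ f ∈ T, ((hol c' (bd f) : Rˣ) : R) - 1 ∈ J ^ k := by
    intro k hk
    induction k, hk using Nat.le_induction with
    | base =>
      refine ⟨fun e => if e ∈ D then 1 else c e, fun e he => if_neg he, fun e he => ?_,
        fun f hf => ?_⟩
      · beta_reduce
        rw [if_pos he, Units.val_one, sub_self]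
        exact J.zero_mem
      · rw [pow_one]
        refine h.hol_mem _ _ (hst _ (fun e he => if_neg he) (fun e he => ?_) f hf)
        beta_reduce
        rw [if_pos he, Units.val_one, sub_self]
        exact J.zero_mem
    | succ k hk ih =>
      obtain ⟨c', h1, h2, h3⟩ := ih
      obtain ⟨r, hr⟩ : ∃ r : F → R, ∀ f, r f = ((hol c' (bd f) : Rˣ) : R) - 1 :=
        ⟨_, fun _ => rfl⟩
      obtain ⟨y, hy⟩ : ∃ y : E → R, ∀ e, y e = - ∑ f' ∈ T, b f' e • r f' := ⟨_, fun _ => rfl⟩
      have hyk : ∀ e, y e ∈ J ^ k := by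
        intro e
        rw [hy]
        refine Submodule.neg_mem _ (Submodule.sum_mem _ fun f' hf' => Submodule.smul_mem _ _ ?_)
        rw [hr]
        exact h3 f' hf'
      have hyJ : ∀ e, y e ∈ J := fun e => by
        have h4 := h.pow_anti le_rfl hk (hyk e)
        rwa [pow_one] at h4
      have hy0 : ∀ e, e ∉ D → y e = 0 := by
        intro e he
        rw [hy, neg_eq_zero]
        refine Finset.sum_eq_zero fun f' _ => ?_
        have h4 : b f' e = 0 := by
          by_contra h5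
          exact he (hbD f' e h5)
        rw [h4, zero_smul]
      choose v hv using fun e => h.unit_of (hyJ e)
      refine ⟨fun e => c' e * v e, fun e he => ?_, fun e he => ?_, fun f hf => ?_⟩
      · have h4 : v e = 1 := by
          apply Units.ext
          rw [hv, hy0 e he, add_zero, Units.val_one]
        beta_reduce
        rw [h4, mul_one]
        exact h1 e he
      · refine h.mul_mem (h2 e he) ?_
        rw [hv, add_sub_cancel_left]
        exact hyJ e
      · have h4 := h.hol_mod hk c' (fun e => c' e * v e) y hyk (bd f) (hst c' h1 h2 f hf)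
          (fun eb _ => by rw [Units.val_mul, hv])
        rw [unip_lin T bd b hb' r y hy f hf, hr] at h4
        have h5 : ((hol (fun e => c' e * v e) (bd f) : Rˣ) : R) - 1 =
            ((hol (fun e => c' e * v e) (bd f) : Rˣ) : R) - ((hol c' (bd f) : Rˣ) : R) -
              -(((hol c' (bd f) : Rˣ) : R) - 1) := by
          abel
        rw [h5]
        exact h4
  obtain ⟨c', h1, -, h3⟩ := claim n h.pos
  refine ⟨c', h1, fun f hf => ?_⟩
  have h4 := h3 f hf
  rw [h.nil, Submodule.mem_bot, sub_eq_zero] at h4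
  exact Units.ext (by rw [h4, Units.val_one])

end Vale.Agent.P173.B2
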