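import Vale.Agent.Lib.P173.Interface
import Vale.Agent.Lib.P173.B2.RelInj
import Vale.Agent.Lib.P173.B2.Flat
import Vale.Agent.Lib.P173.B2.Unip

/-!
# P173 part B2: the contradiction

homotopic_fin: induction on `Relation.EqvGen` (a step changes the holonomy only by hol (bd f) or a cancellation).
b2: take c, x, p from `flat_exists`; p is homotopic to [] in X (simply connected), `homotopic_fin` gives a finite
set S of faces.  T = the faces of S not in uF, D = (uE)ᶜ.  Apply `U.loc` to the finite set of the values c e at the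
edges of the faces of T (all in gamSub U), `nilp_of`, `unip_solve` (hinj = `relInj`: (X.d₂ z) e = z.sum (m * chain e)
and X.chain = chainL by rfl).  The new labelling c' agrees with c on uE, is flat on T, and on S ∩ uF it is flat because
c is (edges in uE).  So hol c' p = 1, but hol c' p = hol c p ≠ 1 (p in uE).
-/

namespace Vale.Agent.P173.B2

open Vale.Agent.P173

variable {K : ColGraph} {X : TwoComplex}

theorem homotopic_fin (x y : X.V) (p q : List (X.E × Bool)) (h : X.Homotopic x y p q) :
    ∃ S : Finset X.F, ∀ (H : Type) [Group H] (c : X.E → H), (∀ f ∈ S, hol c (X.bd f) = 1) →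
      hol c p = hol c q := by
  classical
  induction h with
  | rel p q h =>
    obtain ⟨h, -, -⟩ := h
    cases h with
    | cancel l r e b =>
      refine ⟨∅, fun H _ c _ => ?_⟩
      rw [hol_append, hol_append, hol_cons, hol_cons, ← mul_assoc (if (e, b).2 = true then _ else _)]
      have h1 : (if (e, b).2 = true then c (e, b).1 else (c (e, b).1)⁻¹) *
          (if (e, !b).2 = true then c (e, !b).1 else (c (e, !b).1)⁻¹) = 1 := by
        cases b <;> simp
      rw [h1, one_mul]
    | face l r f =>
      refine ⟨{f}, fun H _ c hc => ?_⟩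
      rw [hol_append, hol_append, hol_append, hc f (Finset.mem_singleton_self f), mul_one]
  | refl p => exact ⟨∅, fun H _ c _ => rfl⟩
  | symm p q _ ih =>
    obtain ⟨S, hS⟩ := ih
    exact ⟨S, fun H _ c hc => (hS H c hc).symm⟩
  | trans p q r _ _ ih1 ih2 =>
    obtain ⟨S, hS⟩ := ih1
    obtain ⟨S', hS'⟩ := ih2
    refine ⟨S ∪ S', fun H _ c hc => ?_⟩
    rw [hS H c fun f hf => hc f (Finset.mem_union_left _ hf),
      hS' H c fun f hf => hc f (Finset.mem_union_right _ hf)]

theorem b2 (K : ColGraph) (X : TwoComplex) (hX : X.IsContractible) (C : GoodCover K X)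
    (U : UniCocycle K) (hK : K.FlagH1) : False := by
  classical
  obtain ⟨-, hsc, hH2⟩ := hX
  obtain ⟨c, x, p, hcΓ, hflat, hp, hpE, hne⟩ := flat_exists C U
  obtain ⟨S, hS⟩ := homotopic_fin x x p [] (hsc x p hp)
  obtain ⟨T, hT⟩ : ∃ T : Finset X.F, T = S.filter fun f => f ∉ uF C := ⟨_, rfl⟩
  obtain ⟨L, hL⟩ : ∃ L : Finset U.Rˣ,
      L = T.biUnion fun f => ((X.bd f).map fun eb => c eb.1).toFinset := ⟨_, rfl⟩
  obtain ⟨J, n, hJ1, hJ2, hJ3⟩ := U.loc L (by
    intro g hg
    rw [hL, Finset.mem_biUnion] at hg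
    obtain ⟨f, -, hf⟩ := hg
    rw [List.mem_toFinset, List.mem_map] at hf
    obtain ⟨eb, -, rfl⟩ := hf
    exact hcΓ eb.1)
  obtain ⟨c', hc'1, hc'2⟩ := unip_solve J (n + 1) (nilp_of J n hJ1 hJ2) T X.bd (uE C)ᶜ c
    (by
      intro f hf eb heb _
      refine hJ3 _ ?_
      rw [hL, Finset.mem_biUnion]
      refine ⟨f, hf, ?_⟩
      rw [List.mem_toFinset, List.mem_map]
      exact ⟨eb, heb, rfl⟩)
    (by
      intro z hz hz'
      refine relInj hH2 C hK z ?_ ?_
      · intro f hf
        have h1 := hz f hf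
        rw [hT, Finset.mem_filter] at h1
        exact h1.2
      · intro e he
        by_contra hcon
        refine he ?_
        have h1 := hz' e hcon
        rw [← h1]
        unfold TwoComplex.d₂
        rw [Finsupp.sum_apply]
        refine Finset.sum_congr rfl fun f _ => ?_
        change (z f • X.chain (X.bd f)) e = z f * (chainL (X.bd f)) e
        rw [Finsupp.smul_apply, smul_eq_mul]
        rfl)
  have hagree : ∀ eb : X.E × Bool, eb.1 ∈ uE C → c' eb.1 = c eb.1 := fun eb heb =>
    hc'1 eb.1 fun h => h heb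
  have h1 : hol c' p = 1 := by
    have h2 := hS U.Rˣ c' (by
      intro f hf
      by_cases hfU : f ∈ uF C
      · rw [hol_congr (c' := c) fun eb heb => hagree eb (uF_bd C hfU eb heb)]
        exact hflat f hfU
      · exact hc'2 f (by rw [hT, Finset.mem_filter]; exact ⟨hf, hfU⟩))
    rw [h2, hol_nil]
  rw [hol_congr (c' := c) fun eb heb => hagree eb (hpE eb heb)] at h1
  exact hne h1

end Vale.Agent.P173.B2

theorem Vale.Agent.P173.partB2 : Vale.Agent.P173.PartB2 := by
  rintro K hK ⟨U⟩ X hX C
  exact Vale.Agent.P173.B2.b2 K X hX C U hK
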