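import Vale.Agent.Lib.P173.Setup

/-!
# P173 part B2, module Path: edge paths, holonomy, reversed paths
-/

namespace Vale.Agent.P173.B2

open Vale.Agent.P173

section

variable {V E : Type} {src tgt : E → V}

/-- the reversed path -/
def rev (p : List (E × Bool)) : List (E × Bool) := (p.map fun eb => (eb.1, !eb.2)).reverse

theorem isPath_append {x y z : V} {p q : List (E × Bool)} (hp : IsPath src tgt x p y)
    (hq : IsPath src tgt y q z) : IsPath src tgt x (p ++ q) z := by
  induction p generalizing x with
  | nil =>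
    have h : x = y := hp
    subst h
    exact hq
  | cons eb p ih =>
    obtain ⟨e, b⟩ := eb
    cases b with
    | true => exact ⟨hp.1, ih hp.2⟩
    | false => exact ⟨hp.1, ih hp.2⟩

theorem isPath_rev {x y : V} {p : List (E × Bool)} (hp : IsPath src tgt x p y) :
    IsPath src tgt y (rev p) x := by
  induction p generalizing x with
  | nil =>
    have h : x = y := hp
    exact h.symm
  | cons eb p ih =>
    obtain ⟨e, b⟩ := eb
    have hr : rev ((e, b) :: p) = rev p ++ [(e, !b)] := by
      simp [rev]
    rw [hr]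
    cases b with
    | true => exact isPath_append (ih hp.2) ⟨rfl, hp.1⟩
    | false => exact isPath_append (ih hp.2) ⟨rfl, hp.1⟩

theorem mem_rev {p : List (E × Bool)} {P : E → Prop} (h : ∀ eb ∈ p, P eb.1) :
    ∀ eb ∈ rev p, P eb.1 := by
  intro eb heb
  unfold rev at heb
  rw [List.mem_reverse, List.mem_map] at heb
  obtain ⟨eb', h1, rfl⟩ := heb
  exact h eb' h1

variable {H : Type} [Group H]


theorem hol_nil (c : E → H) : hol c [] = 1 := by
  rfl

theorem hol_cons (c : E → H) (eb : E × Bool) (p : List (E × Bool)) :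
    hol c (eb :: p) = (if eb.2 then c eb.1 else (c eb.1)⁻¹) * hol c p := by
  unfold hol
  rw [List.map_cons, List.prod_cons]

theorem hol_append (c : E → H) (p q : List (E × Bool)) : hol c (p ++ q) = hol c p * hol c q := by
  unfold hol
  rw [List.map_append, List.prod_append]

theorem hol_rev (c : E → H) (p : List (E × Bool)) : hol c (rev p) = (hol c p)⁻¹ := by
  induction p with
  | nil => simp [rev, hol]
  | cons eb p ih =>
    obtain ⟨e, b⟩ := eb
    have hr : rev ((e, b) :: p) = rev p ++ [(e, !b)] := by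
      simp [rev]
    rw [hr, hol_append, ih, hol_cons c (e, b), mul_inv_rev]
    congr 1
    cases b <;> simp [hol]

/-- the holonomy only depends on the labels of the edges of the path -/
theorem hol_congr {c c' : E → H} {p : List (E × Bool)} (h : ∀ eb ∈ p, c eb.1 = c' eb.1) :
    hol c p = hol c' p := by
  unfold hol
  congr 1
  refine List.map_congr_left fun eb heb => ?_
  rw [h eb heb]

/-- holonomy of a coboundary -/
theorem hol_coboundary {c : E → H} {φ : V → H} {x y : V} {p : List (E × Bool)}
    (hp : IsPath src tgt x p y) (h : ∀ eb ∈ p, c eb.1 = (φ (src eb.1))⁻¹ * φ (tgt eb.1)) :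
    hol c p = (φ x)⁻¹ * φ y := by
  induction p generalizing x with
  | nil =>
    have h1 : x = y := hp
    subst h1
    rw [hol_nil, inv_mul_cancel]
  | cons eb p ih =>
    obtain ⟨e, b⟩ := eb
    have hh : ∀ eb ∈ p, c eb.1 = (φ (src eb.1))⁻¹ * φ (tgt eb.1) := fun eb heb =>
      h eb (List.mem_cons_of_mem _ heb)
    have h1 := h (e, b) List.mem_cons_self
    cases b with
    | true =>
      have h2 := ih hp.2 hh
      have h3 : src e = x := hp.1
      rw [hol_cons, h2, if_pos rfl, h1, h3]
      group
    | false =>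
      have h2 := ih hp.2 hh
      have h3 : tgt e = x := hp.1
      rw [hol_cons, h2, if_neg (by simp), h1, h3]
      group

/-- a function which is constant along the edges of a path has the same value at the end points -/
theorem const_of_path {B : Type*} {φ : V → B} {x y : V} {p : List (E × Bool)}
    (hp : IsPath src tgt x p y) (h : ∀ eb ∈ p, φ (src eb.1) = φ (tgt eb.1)) : φ x = φ y := by
  induction p generalizing x with
  | nil =>
    have h1 : x = y := hp
    rw [h1]
  | cons eb p ih =>
    obtain ⟨e, b⟩ := eb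
    have hh : ∀ eb ∈ p, φ (src eb.1) = φ (tgt eb.1) := fun eb heb =>
      h eb (List.mem_cons_of_mem _ heb)
    have h1 : φ (src e) = φ (tgt e) := h (e, b) List.mem_cons_self
    cases b with
    | true =>
      have h2 := ih hp.2 hh
      have h3 : src e = x := hp.1
      rw [← h3, h1, h2]
    | false =>
      have h2 := ih hp.2 hh
      have h3 : tgt e = x := hp.1
      rw [← h3, ← h1, h2]

end

/-- a subcomplex, connected and simply connected: a flat labelling is a coboundary -/
theorem flat_trivial {X : TwoComplex} (Y : Sub X) (hc : Y.Conn) (hs : Y.SC) {H : Type} [Group H]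
    (c : X.E → H) (h : ∀ f ∈ Y.f, hol c (X.bd f) = 1) :
    ∃ φ : X.V → H, ∀ e ∈ Y.e, c e = (φ (X.src e))⁻¹ * φ (X.tgt e) := by
  classical
  obtain ⟨⟨x0, hx0⟩, hconn⟩ := hc
  have hP : ∀ x : X.V, ∃ p : List (X.E × Bool), x ∈ Y.v →
      X.Path x0 p x ∧ ∀ eb ∈ p, eb.1 ∈ Y.e := by
    intro x
    by_cases hx : x ∈ Y.v
    · obtain ⟨p, hp⟩ := hconn x0 hx0 x hx
      exact ⟨p, fun _ => hp⟩
    · exact ⟨[], fun hx' => absurd hx' hx⟩
  choose P hP using hP
  refine ⟨fun x => hol c (P x), fun e he => ?_⟩
  obtain ⟨hs1, hs2⟩ := hP (X.src e) (Y.src_mem e he)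
  obtain ⟨ht1, ht2⟩ := hP (X.tgt e) (Y.tgt_mem e he)
  have hedge : X.Path (X.src e) [(e, true)] (X.tgt e) := ⟨rfl, rfl⟩
  have hloop : X.Path x0 (P (X.src e) ++ ([(e, true)] ++ rev (P (X.tgt e)))) x0 :=
    isPath_append hs1 (isPath_append hedge (isPath_rev ht1))
  have hmem : ∀ eb ∈ P (X.src e) ++ ([(e, true)] ++ rev (P (X.tgt e))), eb.1 ∈ Y.e := by
    intro eb heb
    rw [List.mem_append, List.mem_append] at heb
    rcases heb with h1 | h1 | h1
    · exact hs2 eb h1
    · rw [List.mem_singleton] at h1
      rw [h1]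
      exact he
    · exact mem_rev (P := fun a => a ∈ Y.e) ht2 eb h1
  obtain ⟨S, hS, hS'⟩ := hs x0 hx0 _ hloop hmem
  have h1 := hS' H c fun f hf => h f (hS f hf)
  rw [hol_append, hol_append, hol_rev, hol_cons, hol_nil, if_pos rfl, mul_one] at h1
  change c e = (hol c (P (X.src e)))⁻¹ * hol c (P (X.tgt e))
  have h2 : hol c (P (X.src e)) * c e = hol c (P (X.tgt e)) := by
    rw [← mul_assoc] at h1
    exact mul_inv_eq_one.1 h1
  rw [← h2, inv_mul_cancel_left]

end Vale.Agent.P173.B2
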