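import Vale.Agent.Lib.P173.B2.Path

/-!
# P173 part B2, module UnipA: units congruent to 1 modulo a nilpotent subalgebra

J : Submodule ℚ R with J * J ≤ J and J ^ n = ⊥ (n ≥ 1).  J ^ (k+1) ≤ J ^ k for k ≥ 1.
* `unit_of`: for y ∈ J the element 1 + y is a unit (IsNilpotent.isUnit_one_add).
* `inv_sub_one_mem`: if u - 1 ∈ J then u⁻¹ - 1 ∈ J: with y = u - 1: u⁻¹ - 1 = - y - y (u⁻¹ - 1), so by induction
  (u⁻¹ - 1) - (-1)^k y^k (u⁻¹ - 1) ∈ J; take k = n.
* `hol_sub_one_mem`: products.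
* `hol_mod`: c, c' labellings, D a set of labels, y : E → R with y e ∈ J^k for all e, c e - 1 ∈ J and c' e - 1 ∈ J for the
  edges of p, c' e = c e for e ∉ D and (c' e : R) = c e * (1 + y e) for e ∈ D, y e = 0 for e ∉ D.  Then
  hol c' p - hol c p - ∑ ± y e ∈ J^(k+1) by induction on p:
  (c e (1+y) h' with h' = h + s + r, r ∈ J^(k+1), s ∈ J^k, h - 1 ∈ J, c e - 1 ∈ J;
  for (e, false): (c' e)⁻¹ = (1+y)⁻¹ (c e)⁻¹ and (1+y)⁻¹ - 1 + y ∈ J^(k+1): (1+y)⁻¹ - 1 + y = y ((1+y)⁻¹ y) ... ).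
-/

namespace Vale.Agent.P173.B2

open Vale.Agent.P173

variable {R : Type} [Ring R] [Algebra ℚ R]

/-- a nilpotent subalgebra (without one) -/
structure Nilp (J : Submodule ℚ R) (n : ℕ) : Prop where
  pos : 1 ≤ n
  mul : J * J ≤ J
  nil : J ^ n = ⊥

/-- from the form of the hypothesis in `UniCocycle.loc` -/
theorem nilp_of (J : Submodule ℚ R) (n : ℕ) (hmul : ∀ x ∈ J, ∀ y ∈ J, x * y ∈ J)
    (hnil : ∀ l : List R, (∀ x ∈ l, x ∈ J) → n ≤ l.length → l.prod = 0) : Nilp J (n + 1) := by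
  refine ⟨Nat.le_add_left _ _, ?_, ?_⟩
  · rw [Submodule.mul_le]
    exact fun x hx y hy => hmul x hx y hy
  · rw [eq_bot_iff, Submodule.pow_eq_span_pow_set, Submodule.span_le]
    intro x hx
    obtain ⟨f, rfl⟩ := Set.mem_pow.1 hx
    have h0 := hnil (List.ofFn fun i => ((f i : (J : Set R)) : R))
      (fun y hy => by
        obtain ⟨i, rfl⟩ := List.mem_ofFn.1 hy
        exact (f i).2)
      (by rw [List.length_ofFn]; exact Nat.le_succ n)
    show _ ∈ (⊥ : Submodule ℚ R)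
    rw [Submodule.mem_bot]
    exact h0

variable {J : Submodule ℚ R} {n : ℕ}

theorem Nilp.pow_anti (h : Nilp J n) {k l : ℕ} (hk : 1 ≤ k) (hkl : k ≤ l) : J ^ l ≤ J ^ k := by
  induction l, hkl using Nat.le_induction with
  | base => exact le_rfl
  | succ l hl ih =>
    refine le_trans ?_ ih
    obtain ⟨m, rfl⟩ : ∃ m, l = m + 1 := ⟨l - 1, by omega⟩
    rw [pow_succ J (m + 1), pow_succ J m, mul_assoc]
    exact mul_le_mul' le_rfl h.mul

theorem Nilp.pow_mul (h : Nilp J n) {k : ℕ} {x y : R} (hx : x ∈ J) (hy : y ∈ J ^ k) :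
    x * y ∈ J ^ (k + 1) ∧ y * x ∈ J ^ (k + 1) := by
  constructor
  · rw [pow_succ']
    exact Submodule.mul_mem_mul hx hy
  · rw [pow_succ]
    exact Submodule.mul_mem_mul hy hx

/-- the product of two members -/
theorem Nilp.mul_mem' (h : Nilp J n) {x y : R} (hx : x ∈ J) (hy : y ∈ J) : x * y ∈ J :=
  h.mul (Submodule.mul_mem_mul hx hy)

/-- members are nilpotent -/
theorem Nilp.pow_eq_zero (h : Nilp J n) {y : R} (hy : y ∈ J) : y ^ n = 0 := by
  have h1 := Submodule.pow_mem_pow J hy n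
  rw [h.nil, Submodule.mem_bot] at h1
  exact h1

theorem Nilp.pow_mem' (h : Nilp J n) {y : R} (hy : y ∈ J) (k : ℕ) : y ^ (k + 1) ∈ J := by
  induction k with
  | zero => rwa [zero_add, pow_one]
  | succ k ih =>
    rw [pow_succ]
    exact h.mul_mem' ih hy

/-- `J ^ k ≤ J` for `1 ≤ k` -/
theorem Nilp.of_pow (h : Nilp J n) {k : ℕ} (hk : 1 ≤ k) {y : R} (hy : y ∈ J ^ k) : y ∈ J := by
  have h1 := h.pow_anti le_rfl hk hy
  rwa [pow_one] at h1

theorem Nilp.unit_of (h : Nilp J n) {y : R} (hy : y ∈ J) : ∃ u : Rˣ, (u : R) = 1 + y := by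
  have h1 : IsNilpotent y := ⟨n, h.pow_eq_zero hy⟩
  exact h1.isUnit_one_add

theorem Nilp.inv_mem (h : Nilp J n) {u : Rˣ} (hu : (u : R) - 1 ∈ J) :
    ((u⁻¹ : Rˣ) : R) - 1 ∈ J := by
  obtain ⟨y, hy⟩ : ∃ y : R, y = (u : R) - 1 := ⟨_, rfl⟩
  rw [← hy] at hu
  have hu1 : (u : R) = 1 + y := by rw [hy]; abel
  obtain ⟨v, hv⟩ : ∃ v : R, v = ((u⁻¹ : Rˣ) : R) - 1 := ⟨_, rfl⟩
  have hv1 : ((u⁻¹ : Rˣ) : R) = 1 + v := by rw [hv]; abel
  have huv : (1 + y) * (1 + v) = 1 := by rw [← hu1, ← hv1]; exact u.mul_inv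
  have hv2 : v = (-y) + (-y) * v := by
    have h1 : v = (1 + y) * (1 + v) - 1 + ((-y) + (-y) * v) := by noncomm_ring
    rw [huv, sub_self, zero_add] at h1
    exact h1
  rw [← hv]
  have key : ∀ k : ℕ, ∃ z ∈ J, v = z + (-y) ^ k * v := by
    intro k
    induction k with
    | zero => exact ⟨0, J.zero_mem, by rw [pow_zero, one_mul, zero_add]⟩
    | succ k ih =>
      obtain ⟨z, hz, hzv⟩ := ih
      refine ⟨z + (-y) ^ (k + 1), J.add_mem hz (h.pow_mem' (J.neg_mem hu) k), ?_⟩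
      have h2 : (-y) ^ k * v = (-y) ^ (k + 1) + (-y) ^ (k + 1) * v := by
        conv_lhs => rw [hv2]
        rw [mul_add, pow_succ, mul_assoc]
      rw [h2] at hzv
      rw [add_assoc]
      exact hzv
  obtain ⟨z, hz, hzv⟩ := key n
  rw [h.pow_eq_zero (J.neg_mem hu), zero_mul, add_zero] at hzv
  rw [hzv]
  exact hz

theorem Nilp.mul_mem (h : Nilp J n) {u v : Rˣ} (hu : (u : R) - 1 ∈ J) (hv : (v : R) - 1 ∈ J) :
    ((u * v : Rˣ) : R) - 1 ∈ J := by
  have h1 : ((u * v : Rˣ) : R) - 1 =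
      ((u : R) - 1) * ((v : R) - 1) + ((u : R) - 1) + ((v : R) - 1) := by
    rw [Units.val_mul]
    noncomm_ring
  rw [h1]
  exact J.add_mem (J.add_mem (h.mul_mem' hu hv) hu) hv

/-- if u = c (1 + y) with y ∈ J^k, c - 1 ∈ J then u⁻¹ ≡ c⁻¹ - y modulo J^(k+1), k ≥ 1 -/
theorem Nilp.inv_mod (h : Nilp J n) {k : ℕ} (hk : 1 ≤ k) {u c : Rˣ} {y : R}
    (hc : (c : R) - 1 ∈ J) (hy : y ∈ J ^ k) (hu : (u : R) = c * (1 + y)) :
    ((u⁻¹ : Rˣ) : R) - (((c⁻¹ : Rˣ) : R) - y) ∈ J ^ (k + 1) := by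
  have hyJ : y ∈ J := h.of_pow hk hy
  have hu1 : (u : R) - 1 ∈ J := by
    have h1 : (u : R) - 1 = ((c : R) - 1) + y + ((c : R) - 1) * y := by
      rw [hu]
      noncomm_ring
    rw [h1]
    exact J.add_mem (J.add_mem hc hyJ) (h.mul_mem' hc hyJ)
  have ht := h.inv_mem hu1
  have h2 : ((c⁻¹ : Rˣ) : R) = (1 + y) * ((u⁻¹ : Rˣ) : R) := by
    have h3 : (c : R) * ((1 + y) * ((u⁻¹ : Rˣ) : R)) = 1 := by
      rw [← mul_assoc, ← hu]
      exact u.mul_inv
    calc ((c⁻¹ : Rˣ) : R) = ((c⁻¹ : Rˣ) : R) * ((c : R) * ((1 + y) * ((u⁻¹ : Rˣ) : R))) := by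
          rw [h3, mul_one]
      _ = (1 + y) * ((u⁻¹ : Rˣ) : R) := by rw [← mul_assoc, c.inv_mul, one_mul]
  have h4 : ((u⁻¹ : Rˣ) : R) - (((c⁻¹ : Rˣ) : R) - y) = -(y * (((u⁻¹ : Rˣ) : R) - 1)) := by
    rw [h2]
    noncomm_ring
  rw [h4]
  exact (J ^ (k + 1)).neg_mem (h.pow_mul ht hy).2

theorem Nilp.hol_mem (h : Nilp J n) {E : Type} (c : E → Rˣ) (p : List (E × Bool))
    (hc : ∀ eb ∈ p, ((c eb.1 : Rˣ) : R) - 1 ∈ J) : ((hol c p : Rˣ) : R) - 1 ∈ J := by
  induction p with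
  | nil =>
    have h1 : hol c ([] : List (E × Bool)) = 1 := rfl
    rw [h1, Units.val_one, sub_self]
    exact J.zero_mem
  | cons a p ih =>
    have h1 : hol c (a :: p) = (if a.2 then c a.1 else (c a.1)⁻¹) * hol c p := by
      unfold hol
      rw [List.map_cons, List.prod_cons]
    rw [h1]
    refine h.mul_mem ?_ (ih fun eb heb => hc eb (List.mem_cons_of_mem _ heb))
    have h2 := hc a List.mem_cons_self
    split_ifs
    · exact h2
    · exact h.inv_mem h2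

/-- change of the holonomy modulo J^(k+1) -/
theorem Nilp.hol_mod (h : Nilp J n) {E : Type} {k : ℕ} (hk : 1 ≤ k) (c c' : E → Rˣ) (y : E → R)
    (hy : ∀ e, y e ∈ J ^ k) (p : List (E × Bool))
    (hc : ∀ eb ∈ p, ((c eb.1 : Rˣ) : R) - 1 ∈ J)
    (hcc : ∀ eb ∈ p, ((c' eb.1 : Rˣ) : R) = (c eb.1 : R) * (1 + y eb.1)) :
    ((hol c' p : Rˣ) : R) - ((hol c p : Rˣ) : R) -
      (p.map fun eb => if eb.2 then y eb.1 else - y eb.1).sum ∈ J ^ (k + 1) := by
  have hc' : ∀ eb ∈ p, ((c' eb.1 : Rˣ) : R) - 1 ∈ J := by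
    intro eb heb
    have hyJ : y eb.1 ∈ J := h.of_pow hk (hy _)
    have h1 : ((c' eb.1 : Rˣ) : R) - 1 =
        ((c eb.1 : R) - 1) + y eb.1 + ((c eb.1 : R) - 1) * y eb.1 := by
      rw [hcc eb heb]
      noncomm_ring
    rw [h1]
    exact J.add_mem (J.add_mem (hc eb heb) hyJ) (h.mul_mem' (hc eb heb) hyJ)
  induction p with
  | nil =>
    have h1 : hol c ([] : List (E × Bool)) = 1 := rfl
    have h2 : hol c' ([] : List (E × Bool)) = 1 := rfl
    rw [h1, h2, sub_self, List.map_nil, List.sum_nil, sub_zero]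
    exact (J ^ (k + 1)).zero_mem
  | cons a p ih =>
    have hcp : ∀ eb ∈ p, ((c eb.1 : Rˣ) : R) - 1 ∈ J := fun eb heb =>
      hc eb (List.mem_cons_of_mem _ heb)
    have hcp' : ∀ eb ∈ p, ((c' eb.1 : Rˣ) : R) - 1 ∈ J := fun eb heb =>
      hc' eb (List.mem_cons_of_mem _ heb)
    have hih := ih hcp (fun eb heb => hcc eb (List.mem_cons_of_mem _ heb)) hcp'
    have hh := h.hol_mem c p hcp
    have hh' := h.hol_mem c' p hcp'
    have hca := hc a List.mem_cons_self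
    -- the data of the first letter
    have hg : ∃ ρ : R, ρ ∈ J ^ (k + 1) ∧
        (((if a.2 then c' a.1 else (c' a.1)⁻¹ : Rˣ)) : R) =
          ((if a.2 then c a.1 else (c a.1)⁻¹ : Rˣ) : R) + (if a.2 then y a.1 else - y a.1) + ρ := by
      have hcca := hcc a List.mem_cons_self
      by_cases hb : a.2 = true
      · refine ⟨((c a.1 : R) - 1) * y a.1, (h.pow_mul hca (hy _)).1, ?_⟩
        rw [if_pos hb, if_pos hb, if_pos hb, hcca]
        noncomm_ring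
      · refine ⟨_, h.inv_mod hk hca (hy a.1) hcca, ?_⟩
        rw [if_neg hb, if_neg hb, if_neg hb]
        abel
    have hgJ : (((if a.2 then c a.1 else (c a.1)⁻¹ : Rˣ)) : R) - 1 ∈ J := by
      split_ifs
      · exact hca
      · exact h.inv_mem hca
    have hδ : (if a.2 then y a.1 else - y a.1) ∈ J ^ k := by
      split_ifs
      · exact hy _
      · exact (J ^ k).neg_mem (hy _)
    have h1 : hol c (a :: p) = (if a.2 then c a.1 else (c a.1)⁻¹) * hol c p := by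
      unfold hol
      rw [List.map_cons, List.prod_cons]
    have h2 : hol c' (a :: p) = (if a.2 then c' a.1 else (c' a.1)⁻¹) * hol c' p := by
      unfold hol
      rw [List.map_cons, List.prod_cons]
    have hs : (p.map fun eb => if eb.2 then y eb.1 else - y eb.1).sum ∈ J ^ k := by
      refine list_sum_mem fun x hx => ?_
      obtain ⟨eb, _, rfl⟩ := List.mem_map.1 hx
      split_ifs
      · exact hy _
      · exact (J ^ k).neg_mem (hy _)
    rw [h1, h2, Units.val_mul, Units.val_mul, List.map_cons, List.sum_cons]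
    obtain ⟨ρ, hρ, hg⟩ := hg
    generalize ((if a.2 then c' a.1 else (c' a.1)⁻¹ : Rˣ) : R) = g' at hg ⊢
    generalize ((if a.2 then c a.1 else (c a.1)⁻¹ : Rˣ) : R) = g at hg hgJ ⊢
    generalize (if a.2 then y a.1 else - y a.1) = δ at hg hδ ⊢
    generalize (p.map fun eb => if eb.2 then y eb.1 else - y eb.1).sum = s at hih hs ⊢
    generalize ((hol c p : Rˣ) : R) = q at hih hh ⊢
    generalize ((hol c' p : Rˣ) : R) = q' at hih hh' ⊢
    obtain ⟨r, hr⟩ : ∃ r : R, r = q' - q - s := ⟨_, rfl⟩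
    rw [← hr] at hih
    have hq' : q' = q + s + r := by rw [hr]; abel
    have hsr : s + r ∈ J := J.add_mem (h.of_pow hk hs) (h.of_pow (by omega) hih)
    have e1 : g' * q' - g * q - (δ + s) =
        (g - 1) * s + (r + (g - 1) * r) + δ * (q - 1) + δ * (s + r) + (ρ + ρ * (q' - 1)) := by
      rw [hg]
      have : q' - 1 = q + s + r - 1 := by rw [hq']
      rw [this, hq']
      noncomm_ring
    rw [e1]
    have m1 : (g - 1) * s ∈ J ^ (k + 1) := (h.pow_mul hgJ hs).1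
    have m2 : (g - 1) * r ∈ J ^ (k + 1) :=
      h.pow_anti (by omega) (Nat.le_succ _) (h.pow_mul hgJ hih).1
    have m3 : δ * (q - 1) ∈ J ^ (k + 1) := (h.pow_mul hh hδ).2
    have m4 : δ * (s + r) ∈ J ^ (k + 1) := (h.pow_mul hsr hδ).2
    have m5 : ρ * (q' - 1) ∈ J ^ (k + 1) :=
      h.pow_anti (by omega) (Nat.le_succ _) (h.pow_mul hh' hρ).2
    exact Submodule.add_mem _ (Submodule.add_mem _ (Submodule.add_mem _ (Submodule.add_mem _ m1
      (Submodule.add_mem _ hih m2)) m3) m4) (Submodule.add_mem _ hρ m5)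

end Vale.Agent.P173.B2
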